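import Vale.Agent.P052.Main

/-! # P052: all dimensions `d ≥ 63` (helper18)

The 321 points of dimension 63 with the extra point moved slightly, and `k` apex points at distance
`√128` from each other and from the 321 points. -/

namespace Vale.Agent.P052.AD

open Vale.Agent.P052

variable (k : ℕ)

/-- `√(16 + k)` -/
noncomputable def tau : ℝ := Real.sqrt (16 + k)

theorem tau_sq : tau k ^ 2 = 16 + k := by
  unfold tau
  exact Real.sq_sqrt (by positivity)

theorem tau_pos : 0 < tau k := by
  unfold tau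
  exact Real.sqrt_pos.mpr (by positivity)

/-- coordinate of the apex points -/
noncomputable def bet : ℝ := 2 / (tau k + 4)

/-- the scaling factor of the extra point -/
noncomputable def sk : ℝ :=
  (-8 + Real.sqrt (64 + (104 + 7 * k) * (136 + 8 * k))) / (104 + 7 * k)

theorem sk_eq : (104 + 7 * (k : ℝ)) * sk k ^ 2 + 16 * sk k = 136 + 8 * k := by
  unfold sk
  have hp : (0 : ℝ) < 104 + 7 * k := by positivity
  have h : Real.sqrt (64 + (104 + 7 * k) * (136 + 8 * k)) ^ 2 =
      64 + (104 + 7 * (k : ℝ)) * (136 + 8 * k) := Real.sq_sqrt (by positivity)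
  generalize Real.sqrt (64 + (104 + 7 * k) * (136 + 8 * k)) = r at *
  generalize (k : ℝ) = x at *
  field_simp
  nlinarith [h]

theorem sk_pos : 0 < sk k := by
  unfold sk
  have hp : (0 : ℝ) < 104 + 7 * k := by positivity
  have h : (8 : ℝ) < Real.sqrt (64 + (104 + 7 * k) * (136 + 8 * k)) := by
    rw [Real.lt_sqrt (by norm_num)]
    have : (0 : ℝ) < (104 + 7 * k) * (136 + 8 * k) := by positivity
    linarith
  apply div_pos _ hp
  linarith

/-- height of the extra point -/
noncomputable def gam : ℝ := 2 * (1 - sk k) / tau k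

/-- `k γ² = 68 - 8 s - 52 s²` -/
theorem gam_eq : (k : ℝ) * gam k ^ 2 = 68 - 8 * sk k - 52 * sk k ^ 2 := by
  have h1 := sk_eq k
  have h2 := tau_sq k
  have h3 := tau_pos k
  unfold gam
  rw [div_pow, mul_pow]
  rw [h2]
  have h4 : (0 : ℝ) < 16 + k := by positivity
  field_simp
  nlinarith [h1]

/-- `γ (8 + k β) = 4 (1 - s)` -/
theorem gb_eq : gam k * (8 + k * bet k) = 4 * (1 - sk k) := by
  have h2 := tau_sq k
  have h3 := tau_pos k
  have h5 : (k : ℝ) = tau k ^ 2 - 16 := by linarith
  unfold gam bet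
  rw [h5]
  have h4 : tau k + 4 ≠ 0 := by positivity
  have h6 : tau k ≠ 0 := ne_of_gt h3
  field_simp
  ring

/-- `k β² + 16 β = 4` -/
theorem bb_eq : (k : ℝ) * bet k ^ 2 + 16 * bet k = 4 := by
  have h2 := tau_sq k
  have h3 := tau_pos k
  have h5 : (k : ℝ) = tau k ^ 2 - 16 := by linarith
  unfold bet
  rw [h5]
  have h4 : tau k + 4 ≠ 0 := by positivity
  field_simp
  ring

variable {k}

/-- a point of `(63 + k)`-space from its two blocks of coordinates -/
noncomputable def mk (u : EuclideanSpace ℝ (Fin 63)) (w : Fin k → ℝ) :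
    EuclideanSpace ℝ (Fin (63 + k)) :=
  WithLp.toLp 2 (Fin.append (fun i => u i) w)

theorem dist_mk (u u' : EuclideanSpace ℝ (Fin 63)) (w w' : Fin k → ℝ) :
    dist (mk u w) (mk u' w') ^ 2 = dist u u' ^ 2 + ∑ j, (w j - w' j) ^ 2 := by
  rw [dist_eq_norm, dist_eq_norm, EuclideanSpace.norm_sq_eq, EuclideanSpace.norm_sq_eq,
    Fin.sum_univ_add]
  have h1 : ∀ i : Fin 63, ‖(mk u w - mk u' w') (Fin.castAdd k i)‖ ^ 2 = ‖(u - u') i‖ ^ 2 := by
    intro i
    unfold mk
    simp
  have h2 : ∀ j : Fin k, ‖(mk u w - mk u' w') (Fin.natAdd 63 j)‖ ^ 2 = (w j - w' j) ^ 2 := by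
    intro j
    unfold mk
    simp [sq_abs]
  rw [Finset.sum_congr rfl fun i _ => h1 i, Finset.sum_congr rfl fun j _ => h2 j]

variable (k)

/-- the moved extra point, first block -/
noncomputable def xk : EuclideanSpace ℝ (Fin 63) := vec ptO + sk k • (vec ptV - vec ptO)

theorem dist_xk (p : EuclideanSpace ℝ (Fin 63)) :
    dist p (xk k) ^ 2 = (1 - sk k) * dist p (vec ptO) ^ 2 + sk k * dist p (vec ptV) ^ 2
      - sk k * (1 - sk k) * dist (vec ptV) (vec ptO) ^ 2 := by
  have e1 : p - xk k = (p - vec ptO) - sk k • (vec ptV - vec ptO) := by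
    unfold xk; abel
  have e2 : p - vec ptV = (p - vec ptO) - (vec ptV - vec ptO) := by abel
  rw [dist_eq_norm, dist_eq_norm, dist_eq_norm, dist_eq_norm, e1, e2]
  exact stewart _ _ _

/-- the first 321 points -/
noncomputable def q (i : Fin 321) : EuclideanSpace ℝ (Fin (63 + k)) :=
  if h : (i : ℕ) < ptsC.length then mk (vec ptsC[(i : ℕ)]) (fun _ => 0)
  else mk (xk k) (fun _ => gam k)

/-- the apex points -/
noncomputable def ap (j : Fin k) : EuclideanSpace ℝ (Fin (63 + k)) :=
  mk (vec ptO) (fun l => (if l = j then 8 else 0) + bet k)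

theorem q_C (i : Fin 321) (h : (i : ℕ) < ptsC.length) :
    q k i = mk (vec ptsC[(i : ℕ)]) (fun _ => 0) := by
  unfold q; rw [dif_pos h]

theorem q_V (i : Fin 321) (h : ¬ (i : ℕ) < ptsC.length) : q k i = mk (xk k) (fun _ => gam k) := by
  unfold q; rw [dif_neg h]

theorem dOV : dist (vec ptV) (vec ptO) ^ 2 = 52 := by
  rcases chk_spec chkPt_V chkPt_O chk_OV with h | h <;> rw [h.2] <;> norm_num

theorem dCO (i : ℕ) (h : i < ptsC.length) : dist (vec ptsC[i]) (vec ptO) ^ 2 = 60 := by
  have hO := List.all_eq_true.mp chk_O _ (List.getElem_mem h)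
  rcases chk_spec (chkPt_C i h) chkPt_O hO with h | h <;> rw [h.2] <;> norm_num

theorem real1 (s : ℝ) (hs : 0 < s) : (1 - s) * 60 + s * 88 - s * (1 - s) * 52 +
    (68 - 8 * s - 52 * s ^ 2) < 128 := by
  nlinarith

theorem real2 (t : ℝ) (h1 : 13 * t ^ 2 + 2 * t = 17) (h2 : 0 < t) :
    (1 - t) * 60 + t * 88 - t * (1 - t) * 52 ≠ 128 := by
  intro hc
  nlinarith

/-- distances among the first 321 points, compared with the configuration of dimension 63 -/
theorem dist_q (i j : Fin 321) (hij : (i : ℕ) < j) :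
    dist (q k i) (q k j) ^ 2 = 128 ∨
      (dist (q k i) (q k j) ^ 2 < 128 ∧ dist (pt i) (pt j) ^ 2 ≠ 128) := by
  have hiC : (i : ℕ) < ptsC.length := by
    have := j.2; rw [len_C]; omega
  by_cases hjC : (j : ℕ) < ptsC.length
  · rw [pt_C i hiC, pt_C j hjC, q_C k i hiC, q_C k j hjC, dist_mk]
    have hz : ∑ _l : Fin k, ((0 : ℝ) - 0) ^ 2 = 0 := by simp
    rw [hz, add_zero]
    have hp := List.pairwise_iff_getElem.mp ((allPairs_iff _ _).mp chk_pairs) i j hiC hjC hij
    rcases chk_spec (chkPt_C i hiC) (chkPt_C j hjC) hp with h | h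
    · right
      rw [h.2]; norm_num
    · left; rw [h.2]; norm_num
  · rw [pt_C i hiC, pt_V j hjC, q_C k i hiC, q_V k j hjC, dist_mk, dist_xk, dist_x, dOV,
      dCO i hiC]
    have hz : ∑ _l : Fin k, ((0 : ℝ) - gam k) ^ 2 = k * gam k ^ 2 := by
      rw [Finset.sum_const, Finset.card_univ, Fintype.card_fin, nsmul_eq_mul]
      ring
    rw [hz, gam_eq]
    have hV := List.all_eq_true.mp chk_V _ (List.getElem_mem hiC)
    have hs := sk_pos k
    have hs1 := sc_eq
    have hs2 := sc_pos
    rcases chk_spec (chkPt_C i hiC) chkPt_V hV with h | h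
    · right
      have hV2 : dist (vec ptsC[(i : ℕ)]) (vec ptV) ^ 2 = 88 := by rw [h.2]; norm_num
      rw [hV2]
      exact ⟨real1 _ hs, real2 _ hs1 hs2⟩
    · left
      have hV2 : dist (vec ptsC[(i : ℕ)]) (vec ptV) ^ 2 = 120 := by rw [h.2]; norm_num
      rw [hV2]
      ring

theorem sk_lt : sk k < 4 := by
  have h1 := sk_eq k
  have h2 := sk_pos k
  have h3 : (0 : ℝ) ≤ k := Nat.cast_nonneg k
  by_contra hc
  push Not at hc
  generalize sk k = s at *
  generalize (k : ℝ) = x at *
  have h4 : (16 : ℝ) ≤ s ^ 2 := by nlinarith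
  have h5 : (104 + 7 * x) * 16 ≤ (104 + 7 * x) * s ^ 2 :=
    mul_le_mul_of_nonneg_left h4 (by linarith)
  linarith

theorem real3 (s : ℝ) (hs : s < 4) : 0 < (1 - s) * 60 + s * 88 - s * (1 - s) * 52 +
    (68 - 8 * s - 52 * s ^ 2) := by
  nlinarith

theorem q_ne (i j : Fin 321) (hij : (i : ℕ) < j) : q k i ≠ q k j := by
  intro he
  have h0 : dist (q k i) (q k j) ^ 2 = 0 := by
    rw [he, dist_self]
    norm_num
  have hiC : (i : ℕ) < ptsC.length := by
    have := j.2; rw [len_C]; omega
  by_cases hjC : (j : ℕ) < ptsC.length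
  · rw [q_C k i hiC, q_C k j hjC, dist_mk] at h0
    have hz : ∑ _l : Fin k, ((0 : ℝ) - 0) ^ 2 = 0 := by simp
    rw [hz, add_zero] at h0
    have hp := List.pairwise_iff_getElem.mp ((allPairs_iff _ _).mp chk_pairs) i j hiC hjC hij
    rcases chk_spec (chkPt_C i hiC) (chkPt_C j hjC) hp with h | h
    · rw [h.2] at h0
      norm_num at h0
    · rw [h.2] at h0
      norm_num at h0
  · rw [q_C k i hiC, q_V k j hjC, dist_mk, dist_xk, dOV, dCO i hiC] at h0
    have hz : ∑ _l : Fin k, ((0 : ℝ) - gam k) ^ 2 = k * gam k ^ 2 := by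
      rw [Finset.sum_const, Finset.card_univ, Fintype.card_fin, nsmul_eq_mul]
      ring
    rw [hz, gam_eq] at h0
    have hV := List.all_eq_true.mp chk_V _ (List.getElem_mem hiC)
    rcases chk_spec (chkPt_C i hiC) chkPt_V hV with h | h
    · have hV2 : dist (vec ptsC[(i : ℕ)]) (vec ptV) ^ 2 = 88 := by rw [h.2]; norm_num
      rw [hV2] at h0
      exact absurd h0 (ne_of_gt (real3 _ (sk_lt k)))
    · have hV2 : dist (vec ptsC[(i : ℕ)]) (vec ptV) ^ 2 = 120 := by rw [h.2]; norm_num
      rw [hV2] at h0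
      have h1 : (1 - sk k) * 60 + sk k * 120 - sk k * (1 - sk k) * 52 +
          (68 - 8 * sk k - 52 * sk k ^ 2) = 128 := by ring
      rw [h1] at h0
      norm_num at h0

theorem sum_ap (j : Fin k) (x : ℝ) :
    ∑ l : Fin k, (x - ((if l = j then 8 else 0) + bet k)) ^ 2 =
      k * (x - bet k) ^ 2 - 16 * (x - bet k) + 64 := by
  have h : ∀ l : Fin k, (x - ((if l = j then (8 : ℝ) else 0) + bet k)) ^ 2 =
      (x - bet k) ^ 2 + (if l = j then -16 * (x - bet k) + 64 else 0) := by
    intro l
    split_ifs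
    · ring
    · ring
  rw [Finset.sum_congr rfl fun l _ => h l, Finset.sum_add_distrib, Finset.sum_const,
    Finset.card_univ, Fintype.card_fin, nsmul_eq_mul, Finset.sum_ite_eq' Finset.univ j]
  simp
  ring

theorem dist_q_ap (i : Fin 321) (j : Fin k) : dist (q k i) (ap k j) ^ 2 = 128 := by
  by_cases hiC : (i : ℕ) < ptsC.length
  · rw [q_C k i hiC]
    unfold ap
    rw [dist_mk, sum_ap, dCO i hiC]
    have := bb_eq k
    linear_combination this
  · rw [q_V k i hiC]
    unfold ap
    rw [dist_mk, sum_ap]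
    have h0 : dist (xk k) (vec ptO) ^ 2 = sk k ^ 2 * 52 := by
      have e1 : xk k - vec ptO = sk k • (vec ptV - vec ptO) := by
        unfold xk; abel
      rw [dist_eq_norm, e1, norm_smul, mul_pow, ← dist_eq_norm, dOV, Real.norm_eq_abs, sq_abs]
    rw [h0]
    have h1 := bb_eq k
    have h2 := gam_eq k
    have h3 := gb_eq k
    linear_combination h1 + h2 - 2 * h3

theorem dist_ap_ap (i j : Fin k) (hij : i ≠ j) : dist (ap k i) (ap k j) ^ 2 = 128 := by
  unfold ap
  rw [dist_mk, dist_self]
  have h : ∀ l : Fin k, (((if l = i then (8 : ℝ) else 0) + bet k) -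
      ((if l = j then (8 : ℝ) else 0) + bet k)) ^ 2 =
      (if l = i then 64 else 0) + (if l = j then 64 else 0) := by
    intro l
    by_cases h1 : l = i
    · have h2 : l ≠ j := by
        rw [h1]
        exact hij
      rw [if_pos h1, if_neg h2, if_pos h1, if_neg h2]
      ring
    · by_cases h2 : l = j
      · rw [if_neg h1, if_pos h2, if_neg h1, if_pos h2]
        ring
      · rw [if_neg h1, if_neg h2, if_neg h1, if_neg h2]
        ring
  rw [Finset.sum_congr rfl fun l _ => h l, Finset.sum_add_distrib,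
    Finset.sum_ite_eq' Finset.univ i, Finset.sum_ite_eq' Finset.univ j]
  simp
  norm_num

/-- all the points -/
noncomputable def Q : Fin 321 ⊕ Fin k → EuclideanSpace ℝ (Fin (63 + k)) := Sum.elim (q k) (ap k)

theorem Q_inl (i : Fin 321) : Q k (Sum.inl i) = q k i := by
  unfold Q
  exact Sum.elim_inl _ _ _

theorem Q_inr (j : Fin k) : Q k (Sum.inr j) = ap k j := by
  unfold Q
  exact Sum.elim_inr _ _ _

theorem Q_inj : Function.Injective (Q k) := by
  intro a b h
  rcases a with i | i <;> rcases b with j | j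
  · rw [Q_inl, Q_inl] at h
    rcases lt_trichotomy (i : ℕ) j with h1 | h1 | h1
    · exact absurd h (q_ne k i j h1)
    · rw [Fin.ext h1]
    · exact absurd h.symm (q_ne k j i h1)
  · rw [Q_inl, Q_inr] at h
    have h1 := dist_q_ap k i j
    rw [h, dist_self] at h1
    norm_num at h1
  · rw [Q_inl, Q_inr] at h
    have h1 := dist_q_ap k j i
    rw [← h, dist_self] at h1
    norm_num at h1
  · rw [Q_inr, Q_inr] at h
    by_cases h1 : i = j
    · rw [h1]
    · have h2 := dist_ap_ap k i j h1
      rw [h, dist_self] at h2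
      norm_num at h2

theorem dist_le (a b : Fin 321 ⊕ Fin k) : dist (Q k a) (Q k b) ^ 2 ≤ 128 := by
  rcases a with i | i <;> rcases b with j | j
  · rw [Q_inl, Q_inl]
    rcases lt_trichotomy (i : ℕ) j with h | h | h
    · rcases dist_q k i j h with h' | h'
      · exact h'.le
      · exact h'.1.le
    · have : i = j := Fin.ext h
      rw [this, dist_self]; norm_num
    · rw [dist_comm]
      rcases dist_q k j i h with h' | h'
      · exact h'.le
      · exact h'.1.le
  · rw [Q_inl, Q_inr]
    exact (dist_q_ap k i j).le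
  · rw [Q_inl, Q_inr, dist_comm]
    exact (dist_q_ap k j i).le
  · rw [Q_inr, Q_inr]
    by_cases h : i = j
    · rw [h, dist_self]; norm_num
    · exact (dist_ap_ap k i j h).le

theorem exists_far' : ∃ a b, dist (Q k a) (Q k b) ^ 2 = 128 := by
  by_contra hcon
  push Not at hcon
  have := card_le_five Finset.univ (fun i _ j _ hij => by
    rcases dist_q k i j hij with h | h
    · have h' := hcon (Sum.inl i) (Sum.inl j)
      rw [Q_inl, Q_inl] at h'
      exact absurd h h'
    · exact h.2)
  simp at this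

theorem bdd : Bornology.IsBounded (Set.range (Q k)) := (Set.finite_range (Q k)).isBounded

theorem diam_eq : Metric.diam (Set.range (Q k)) = Real.sqrt 128 := by
  apply le_antisymm
  · apply Metric.diam_le_of_forall_dist_le (Real.sqrt_nonneg _)
    rintro _ ⟨i, rfl⟩ _ ⟨j, rfl⟩
    exact Real.le_sqrt_of_sq_le (dist_le k i j)
  · obtain ⟨i, j, hij⟩ := exists_far' k
    have h1 : dist (Q k i) (Q k j) ≤ Metric.diam (Set.range (Q k)) :=
      Metric.dist_le_diam_of_mem (bdd k) ⟨i, rfl⟩ ⟨j, rfl⟩
    have h2 : Real.sqrt 128 = dist (Q k i) (Q k j) := by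
      rw [← hij]
      exact Real.sqrt_sq dist_nonneg
    rw [h2]
    exact h1

theorem diam_pos : 0 < Metric.diam (Set.range (Q k)) := by
  rw [diam_eq]
  exact Real.sqrt_pos.mpr (by norm_num)

/-- every covering of the set by pieces of smaller diameter has at least `65 + k` pieces -/
theorem le_of_cover (m : ℕ) (P : Fin m → Set (EuclideanSpace ℝ (Fin (63 + k))))
    (hP : (⋃ i, P i) = Set.range (Q k))
    (hdiam : ∀ i, Metric.diam (P i) < Metric.diam (Set.range (Q k))) : 65 + k ≤ m := by
  classical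
  by_contra hk
  have hcov : ∀ a, ∃ c : Fin m, Q k a ∈ P c := by
    intro a
    have h1 : Q k a ∈ ⋃ c, P c := by rw [hP]; exact ⟨a, rfl⟩
    simpa using h1
  choose f hf using hcov
  have hlt : ∀ a b, f a = f b → dist (Q k a) (Q k b) ^ 2 < 128 := by
    intro a b hab
    have hb : Bornology.IsBounded (P (f a)) :=
      (bdd k).subset (by rw [← hP]; exact Set.subset_iUnion P (f a))
    have h1 : dist (Q k a) (Q k b) ≤ Metric.diam (P (f a)) :=
      Metric.dist_le_diam_of_mem hb (hf a) (hab ▸ hf b)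
    have h2 : dist (Q k a) (Q k b) < Real.sqrt 128 := by
      rw [← diam_eq k]
      exact lt_of_le_of_lt h1 (hdiam _)
    exact (Real.lt_sqrt (dist_nonneg (x := Q k a) (y := Q k b))).mp h2
  have hinj : Function.Injective fun j : Fin k => f (Sum.inr j) := by
    intro i j h
    by_contra hne
    have h1 := hlt (Sum.inr i) (Sum.inr j) h
    have h2 : dist (Q k (Sum.inr i)) (Q k (Sum.inr j)) ^ 2 = 128 := by
      rw [Q_inr, Q_inr]
      exact dist_ap_ap k i j hne
    linarith
  set A : Finset (Fin m) := Finset.univ.image fun j : Fin k => f (Sum.inr j) with hA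
  have hAc : A.card = k := by
    rw [hA, Finset.card_image_of_injective _ hinj, Finset.card_univ, Fintype.card_fin]
  have hmaps : ∀ i ∈ (Finset.univ : Finset (Fin 321)), f (Sum.inl i) ∈ Aᶜ := by
    intro i _
    rw [Finset.mem_compl]
    intro hi
    obtain ⟨j, -, hj⟩ := Finset.mem_image.mp hi
    have h1 := hlt (Sum.inl i) (Sum.inr j) hj.symm
    have h2 : dist (Q k (Sum.inl i)) (Q k (Sum.inr j)) ^ 2 = 128 := by
      rw [Q_inl, Q_inr]
      exact dist_q_ap k i j
    linarith
  have hcc : Aᶜ.card + k = m := by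
    have h1 := Finset.card_compl A
    rw [Fintype.card_fin] at h1
    have h2 : A.card ≤ m := by
      have := Finset.card_le_univ A
      rwa [Fintype.card_fin] at this
    omega
  obtain ⟨c, -, hc⟩ := Finset.exists_lt_card_fiber_of_mul_lt_card_of_maps_to (n := 5) hmaps (by
    rw [Finset.card_univ, Fintype.card_fin]
    omega)
  have hcard := card_le_five (Finset.univ.filter fun i : Fin 321 => f (Sum.inl i) = c) ?_
  · omega
  · intro i hi j hj hij heq
    have hi' : f (Sum.inl i) = c := (Finset.mem_filter.mp hi).2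
    have hj' : f (Sum.inl j) = c := (Finset.mem_filter.mp hj).2
    have h1 := hlt (Sum.inl i) (Sum.inl j) (hi'.trans hj'.symm)
    rw [Q_inl, Q_inl] at h1
    rcases dist_q k i j hij with h | h
    · linarith
    · exact h.2 heq

end Vale.Agent.P052.AD
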