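import Vale.Agent.P052.Data

namespace Vale.Agent.P052

/-- the packed numbers of a point are consistent -/
def chkPt (e : Pt) : Bool :=
  and ((digs 63 e.P).all fun a => Nat.ble a 8)
    (and (Nat.beq (enc (digs 63 e.P)) e.P)
      (and (Nat.beq (encR (digs 63 e.P) 0) e.Q)
        (Nat.beq (e.P * e.Q / BB ^ 62 % BB) e.d)))

def tb (r i : ℕ) : Bool := Nat.beq (Nat.land (Nat.shiftRight r i) 1) 1

/-- squared distance of `a` and `b` is `u` if bit `a.idx` of `b.row` is set, else `v` -/
def chk (u v : ℕ) (a b : Pt) : Bool :=
  Nat.beq (a.d + b.d) (2 * (a.P * b.Q / BB ^ 62 % BB) + cond (tb b.row a.idx) u v)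

def allPairs (r : Pt → Pt → Bool) : List Pt → Bool
  | [] => true
  | a :: l => and (l.all (r a)) (allPairs r l)

/-- adjacency row of index `v` -/
def rowOf (v : ℕ) : ℕ := ((ptsC ++ [ptV]).getD v ptO).row

set_option maxRecDepth 100000 in
theorem chk_pts : (ptO :: ptV :: ptsC).all chkPt = true := by decide +kernel

set_option maxRecDepth 100000 in
theorem chk_pairs : allPairs (chk 96 128) ptsC = true := by decide +kernel

theorem chk_V : ptsC.all (fun a => chk 88 120 a ptV) = true := by decide +kernel

theorem chk_O : ptsC.all (fun a => chk 60 60 a ptO) = true := by decide +kernel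

theorem chk_OV : chk 52 52 ptV ptO = true := by decide +kernel

theorem chk_tree : mtree.chk rowOf 0 = true := by decide +kernel

theorem tree_size : mtree.size = 321 := by decide +kernel

theorem chk_idx : ptsC.map Pt.idx = List.range 320 := by decide +kernel

theorem rows_lt : (ptsC ++ [ptV]).all (fun e => Nat.blt e.row (2 ^ 321)) = true := by decide +kernel

end Vale.Agent.P052
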