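import Vale.Agent.P052.Data

namespace Vale.Agent.P052

theorem clq0 : (pts0.all fun e => force e.row (noclq mtree 321 4)) = true := by
  decide +kernel

theorem clq1 : (pts1.all fun e => force e.row (noclq mtree 321 4)) = true := by
  decide +kernel

theorem clq2 : (pts2.all fun e => force e.row (noclq mtree 321 4)) = true := by
  decide +kernel

theorem clq3 : (pts3.all fun e => force e.row (noclq mtree 321 4)) = true := by
  decide +kernel

theorem clq4 : (pts4.all fun e => force e.row (noclq mtree 321 4)) = true := by
  decide +kernel

theorem clq5 : (pts5.all fun e => force e.row (noclq mtree 321 4)) = true := by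
  decide +kernel

theorem clq6 : (pts6.all fun e => force e.row (noclq mtree 321 4)) = true := by
  decide +kernel

theorem clq7 : (pts7.all fun e => force e.row (noclq mtree 321 4)) = true := by
  decide +kernel

theorem clq8 : (pts8.all fun e => force e.row (noclq mtree 321 4)) = true := by
  decide +kernel

theorem clqV : (force ptV.row (noclq mtree 321 4)) = true := by
  decide +kernel

end Vale.Agent.P052
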