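import Vale.Agent.P052.Data

namespace Vale.Agent.P052

theorem clq13 : (pts13.all fun e => force e.row (noclq mtree 321 4)) = true := by
  decide +kernel

theorem clq14 : (pts14.all fun e => force e.row (noclq mtree 321 4)) = true := by
  decide +kernel

end Vale.Agent.P052
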