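import Mathlib

namespace Vale.Agent.P052

/-- evaluation helper: equal to `f n` -/
noncomputable def force {α : Type} (n : ℕ) (f : ℕ → α) : α :=
  Nat.rec (motive := fun _ => α) (f 0) (fun m _ => f (m + 1)) n

theorem force_eq {α : Type} (n : ℕ) (f : ℕ → α) : force n f = f n := by
  cases n <;> rfl

/-- binary tree used to find the highest set bit of a bit mask and the adjacency row of it -/
inductive MT : Type where
  | leaf : ℕ → ℕ → MT
  | node : ℕ → MT → MT → MT

noncomputable def MT.find {α : Type} (t : MT) : ℕ → (ℕ → ℕ → α) → α :=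
  MT.rec (motive := fun _ => ℕ → (ℕ → ℕ → α) → α) (fun b r _ k => k b r)
    (fun M _ _ fa fb c k => cond (Nat.beq (Nat.land c M) 0) (fb c k) (fa c k)) t

noncomputable def MT.size (t : MT) : ℕ :=
  MT.rec (motive := fun _ => ℕ) (fun _ _ => 1) (fun _ _ _ fa fb => Nat.add fa fb) t

/-- structural check of the tree: leaves are indices `lo, lo+1, …` -/
noncomputable def MT.chk (row : ℕ → ℕ) (t : MT) : ℕ → Bool :=
  MT.rec (motive := fun _ => ℕ → Bool)
    (fun b r lo => and (Nat.beq b (Nat.pow 2 lo)) (Nat.beq r (row lo)))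
    (fun M a b fa fb lo =>
      and (Nat.beq (Nat.add M (Nat.pow 2 (Nat.add lo b.size)))
            (Nat.pow 2 (Nat.add (Nat.add lo b.size) a.size)))
        (and (fa (Nat.add lo b.size)) (fb lo))) t

theorem MT.find_leaf {α : Type} (b r c : ℕ) (k : ℕ → ℕ → α) : (MT.leaf b r).find c k = k b r := rfl

theorem MT.find_node {α : Type} (M c : ℕ) (a b : MT) (k : ℕ → ℕ → α) :
    (MT.node M a b).find c k = cond (Nat.beq (Nat.land c M) 0) (b.find c k) (a.find c k) := rfl

theorem MT.size_node (M : ℕ) (a b : MT) : (MT.node M a b).size = a.size + b.size := rfl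

theorem MT.size_pos (t : MT) : 0 < t.size := by
  induction t with
  | leaf b r => exact Nat.one_pos
  | node M a b iha ihb => rw [MT.size_node]; omega

theorem MT.find_spec (row : ℕ → ℕ) {α : Type} (k : ℕ → ℕ → α) (t : MT) :
    ∀ lo c, t.chk row lo = true → c < 2 ^ (lo + t.size) → 2 ^ lo ≤ c →
      ∃ v, c.testBit v = true ∧ c < 2 ^ (v + 1) ∧ t.find c k = k (2 ^ v) (row v) := by
  induction t with
  | leaf b r =>
    intro lo c h h1 h2
    have h' := (Bool.and_eq_true _ _).mp h
    have hb : b = 2 ^ lo := Nat.eq_of_beq_eq_true h'.1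
    have hr : r = row lo := Nat.eq_of_beq_eq_true h'.2
    have h3 : c < 2 ^ (lo + 1) := h1
    refine ⟨lo, ?_, h3, ?_⟩
    · rw [Nat.testBit_eq_decide_div_mod_eq]
      have h4 : c / 2 ^ lo = 1 := by
        apply Nat.div_eq_of_lt_le
        · simpa using h2
        · rw [pow_succ] at h3; omega
      simp [h4]
    · rw [MT.find_leaf, hb, hr]
  | node M a b iha ihb =>
    intro lo c h h1 h2
    have h' := (Bool.and_eq_true _ _).mp h
    have h'' := (Bool.and_eq_true _ _).mp h'.2
    have hM : M + 2 ^ (lo + b.size) = 2 ^ (lo + b.size + a.size) := Nat.eq_of_beq_eq_true h'.1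
    rw [MT.find_node]
    rw [MT.size_node] at h1
    have hsz : lo + (a.size + b.size) = lo + b.size + a.size := by omega
    rw [hsz] at h1
    have hMt : ∀ j, M.testBit j = (decide (lo + b.size ≤ j) && decide (j < lo + b.size + a.size)) := by
      intro j
      have hM2 : M = 2 ^ (lo + b.size) * (2 ^ a.size - 1) := by
        have : 2 ^ (lo + b.size + a.size) = 2 ^ (lo + b.size) * 2 ^ a.size := by ring
        rw [Nat.mul_sub, mul_one, ← this, ← hM]
        omega
      rw [hM2, Nat.testBit_two_pow_mul, Nat.testBit_two_pow_sub_one]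
      by_cases hj : lo + b.size ≤ j
      · simp [hj]
        constructor <;> intro <;> omega
      · simp [hj]
    rcases hb : Nat.beq (Nat.land c M) 0 with _ | _
    · rw [cond_false]
      refine iha (lo + b.size) c h''.1 h1 ?_
      by_contra hlt
      push Not at hlt
      have : Nat.land c M = 0 := by
        apply Nat.eq_of_testBit_eq
        intro j
        have e : (Nat.land c M).testBit j = (c.testBit j && M.testBit j) := Nat.testBit_and _ _ _
        rw [e, Nat.zero_testBit, hMt]
        by_cases hj : lo + b.size ≤ j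
        · have : c.testBit j = false := Nat.testBit_lt_two_pow (lt_of_lt_of_le hlt
            (Nat.pow_le_pow_right (by norm_num) hj))
          simp [this]
        · simp [hj]
      rw [this] at hb
      exact absurd hb (by decide)
    · rw [cond_true]
      refine ihb lo c h''.2 ?_ h2
      have h0 : Nat.land c M = 0 := Nat.eq_of_beq_eq_true hb
      apply Nat.lt_pow_two_of_testBit
      intro j hj
      by_cases hj2 : j < lo + b.size + a.size
      · have e : (Nat.land c M).testBit j = (c.testBit j && M.testBit j) := Nat.testBit_and _ _ _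
        rw [h0, Nat.zero_testBit, hMt] at e
        simpa [hj, hj2] using e
      · exact Nat.testBit_lt_two_pow (lt_of_lt_of_le h1
            (Nat.pow_le_pow_right (by norm_num) (by omega)))

noncomputable def loop (t : MT) (f : ℕ → Bool) (n : ℕ) : ℕ → Bool :=
  Nat.rec (motive := fun _ => ℕ → Bool) (fun c => Nat.beq c 0)
    (fun _ ih c => cond (Nat.beq c 0) true
      (MT.find t c fun b r => force (Nat.sub c b) fun c' =>
        and (force (Nat.land c' r) f) (ih c'))) n

/-- no clique with `k + 1` elements inside the vertex set coded by the bit mask -/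
noncomputable def noclq (t : MT) (F : ℕ) (k : ℕ) : ℕ → Bool :=
  Nat.rec (motive := fun _ => ℕ → Bool) (fun c => Nat.beq c 0)
    (fun _ ih c => loop t ih F c) k

theorem loop_succ (t : MT) (f : ℕ → Bool) (n c : ℕ) :
    loop t f (n + 1) c = cond (Nat.beq c 0) true
      (MT.find t c fun b r => force (Nat.sub c b) fun c' =>
        and (force (Nat.land c' r) f) (loop t f n c')) := rfl

theorem noclq_succ (t : MT) (F k c : ℕ) : noclq t F (k + 1) c = loop t (noclq t F k) F c := rfl

theorem empty_of_bits {c : ℕ} (hc : c = 0) (S : Finset ℕ)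
    (hS : ∀ i ∈ S, c.testBit i = true) : S = ∅ := by
  subst hc
  apply Finset.eq_empty_of_forall_notMem
  intro i hi
  have := hS i hi
  simp at this

theorem loop_sound (row : ℕ → ℕ) (t : MT) (ht : t.chk row 0 = true) (f : ℕ → Bool) (m : ℕ)
    (hf : ∀ c, c < 2 ^ t.size → f c = true → ∀ S : Finset ℕ, (∀ i ∈ S, c.testBit i = true) →
      (∀ i ∈ S, ∀ j ∈ S, j < i → (row i).testBit j = true) → S.card < m) :
    ∀ n c, c < 2 ^ t.size → loop t f n c = true → ∀ S : Finset ℕ, (∀ i ∈ S, c.testBit i = true) →
      (∀ i ∈ S, ∀ j ∈ S, j < i → (row i).testBit j = true) → S.card < m + 1 := by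
  intro n
  induction n with
  | zero =>
    intro c _ hc S hS _
    have h0 : c = 0 := Nat.eq_of_beq_eq_true hc
    rw [empty_of_bits h0 S hS]
    simp
  | succ n ih =>
    intro c hcs hc S hS hadj
    rw [loop_succ] at hc
    rcases hb : Nat.beq c 0 with _ | _
    · have hc0 : c ≠ 0 := Nat.ne_of_beq_eq_false hb
      rw [hb, cond_false] at hc
      obtain ⟨v, hv1, hv2, hv3⟩ := MT.find_spec row (fun b r => force (Nat.sub c b) fun c' =>
        and (force (Nat.land c' r) f) (loop t f n c')) t 0 c ht (by simpa using hcs)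
        (by simpa using Nat.one_le_iff_ne_zero.mpr hc0)
      rw [hv3, force_eq, force_eq] at hc
      have hsub : Nat.sub c (2 ^ v) = c % 2 ^ v := by
        have h2 : 2 ^ v ≤ c := Nat.ge_two_pow_of_testBit hv1
        have h3 : c < 2 ^ v * 2 := by rw [← pow_succ]; exact hv2
        have h4 : c - 2 ^ v < 2 ^ v := by omega
        show c - 2 ^ v = c % 2 ^ v
        rw [Nat.mod_eq_sub_mod h2, Nat.mod_eq_of_lt h4]
      rw [hsub] at hc
      have hc' := (Bool.and_eq_true _ _).mp hc
      obtain ⟨h1, h2⟩ := hc'
      have hle : ∀ j ∈ S, j ≤ v := by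
        intro j hj
        have h3 : 2 ^ j ≤ c := Nat.ge_two_pow_of_testBit (hS j hj)
        have h4 : 2 ^ j < 2 ^ (v + 1) := lt_of_le_of_lt h3 hv2
        have h5 : j < v + 1 := (Nat.pow_lt_pow_iff_right (by norm_num)).mp h4
        omega
      have hr : ∀ j ∈ S, j ≠ v → (c % 2 ^ v).testBit j = true := by
        intro j hj hne
        rw [Nat.testBit_mod_two_pow]
        have : j < v := lt_of_le_of_ne (hle j hj) hne
        simp [this, hS j hj]
      have hlt : c % 2 ^ v < 2 ^ t.size := lt_of_le_of_lt (Nat.mod_le _ _) hcs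
      have hlt2 : Nat.land (c % 2 ^ v) (row v) < 2 ^ t.size :=
        lt_of_le_of_lt Nat.and_le_left hlt
      by_cases hv : v ∈ S
      · have key := hf _ hlt2 h1 (S.erase v) ?_ ?_
        · rw [Finset.card_erase_of_mem hv] at key
          omega
        · intro i hi
          have hi' := Finset.mem_erase.mp hi
          have hlt : i < v := lt_of_le_of_ne (hle i hi'.2) hi'.1
          have e1 := hr i hi'.2 hi'.1
          have e2 := hadj _ hv i hi'.2 hlt
          have : (Nat.land (c % 2 ^ v) (row v)).testBit i =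
              ((c % 2 ^ v).testBit i && (row v).testBit i) :=
            Nat.testBit_and _ _ _
          rw [this, e1, e2]; rfl
        · intro i hi j hj hij
          exact hadj i (Finset.mem_of_mem_erase hi) j (Finset.mem_of_mem_erase hj) hij
      · refine ih _ hlt h2 S ?_ hadj
        intro i hi
        exact hr i hi (fun h => hv (h ▸ hi))
    · have h0 : c = 0 := Nat.eq_of_beq_eq_true hb
      rw [empty_of_bits h0 S hS]
      simp

theorem noclq_sound (row : ℕ → ℕ) (t : MT) (ht : t.chk row 0 = true) (F : ℕ) : ∀ k c,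
    c < 2 ^ t.size → noclq t F k c = true →
    ∀ S : Finset ℕ, (∀ i ∈ S, c.testBit i = true) →
      (∀ i ∈ S, ∀ j ∈ S, j < i → (row i).testBit j = true) → S.card < k + 1
  | 0, c, _, h => by
    intro S hS _
    have h0 : c = 0 := Nat.eq_of_beq_eq_true h
    rw [empty_of_bits h0 S hS]
    simp
  | k + 1, c, hc, h => by
    exact loop_sound row t ht _ (k + 1) (fun c hc hcc => noclq_sound row t ht F k c hc hcc) F c hc h

end Vale.Agent.P052
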