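import Mathlib
import Vale.Agent.P052.Search

namespace Vale.Agent.P052

/-- base of the packing -/
def BB : ℕ := 10000

def enc : List ℕ → ℕ
  | [] => 0
  | a :: l => a + BB * enc l

def encR : List ℕ → ℕ → ℕ
  | [], acc => acc
  | a :: l, acc => encR l (acc * BB + a)

def digs : ℕ → ℕ → List ℕ
  | 0, _ => []
  | n + 1, x => (x % BB) :: digs n (x / BB)

theorem digs_length (n x : ℕ) : (digs n x).length = n := by
  induction n generalizing x with
  | zero => rfl
  | succ n ih => simp [digs, ih]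

theorem encR_eq (l : List ℕ) (acc : ℕ) : encR l acc = acc * BB ^ l.length + encR l 0 := by
  induction l generalizing acc with
  | nil => simp [encR]
  | cons a l ih =>
    simp only [encR, List.length_cons]
    rw [ih (acc * BB + a), ih (0 * BB + a)]
    ring

def dotL : List ℕ → List ℕ → ℕ
  | a :: l, b :: m => a * b + dotL l m
  | _, _ => 0

theorem encR_bound (l : List ℕ) (h : ∀ a ∈ l, a ≤ 8) : encR l 0 * 9999 + 8 ≤ 8 * BB ^ l.length := by
  induction l with
  | nil => simp [encR]
  | cons a l ih =>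
    have h1 := ih (fun b hb => h b (List.mem_cons_of_mem _ hb))
    have ha : a ≤ 8 := h a List.mem_cons_self
    rw [encR, encR_eq, List.length_cons, pow_succ]
    obtain ⟨Z, hZ⟩ : ∃ Z, Z = BB ^ l.length := ⟨_, rfl⟩
    rw [← hZ] at h1 ⊢
    have hB : BB = 10000 := rfl
    rw [hB]
    have h2 : a * Z ≤ 8 * Z := Nat.mul_le_mul_right _ ha
    have h3 : ((0 * 10000 + a) * Z + encR l 0) * 9999 + 8
        = a * Z * 9999 + (encR l 0 * 9999 + 8) := by ring
    rw [h3]
    clear hZ hB h3
    nlinarith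

theorem enc_bound (l : List ℕ) (h : ∀ a ∈ l, a ≤ 8) : enc l * 9999 + 8 ≤ 8 * BB ^ l.length := by
  induction l with
  | nil => simp [enc]
  | cons a l ih =>
    have h1 := ih (fun b hb => h b (List.mem_cons_of_mem _ hb))
    have ha : a ≤ 8 := h a List.mem_cons_self
    rw [enc, List.length_cons, pow_succ]
    obtain ⟨Z, hZ⟩ : ∃ Z, Z = BB ^ l.length := ⟨_, rfl⟩
    rw [← hZ] at h1 ⊢
    have hB : BB = 10000 := rfl
    rw [hB]
    nlinarith

theorem dotL_bound (l m : List ℕ) (hl : ∀ a ∈ l, a ≤ 8) (hm : ∀ a ∈ m, a ≤ 8) :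
    dotL l m ≤ 64 * l.length := by
  induction l generalizing m with
  | nil => simp [dotL]
  | cons a l ih =>
    cases m with
    | nil => simp [dotL]
    | cons b m =>
      have h1 := ih m (fun b hb => hl b (List.mem_cons_of_mem _ hb))
        (fun b hb => hm b (List.mem_cons_of_mem _ hb))
      have ha : a ≤ 8 := hl a List.mem_cons_self
      have hb : b ≤ 8 := hm b List.mem_cons_self
      have : a * b ≤ 8 * 8 := Nat.mul_le_mul ha hb
      simp only [dotL, List.length_cons]
      omega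

theorem key_split (l m : List ℕ) (n : ℕ) (hln : l.length = n + 1) (hmn : m.length = n + 1)
    (hl : ∀ a ∈ l, a ≤ 8) (hm : ∀ a ∈ m, a ≤ 8) :
    ∃ L H : ℕ, enc l * encR m 0 = L + BB ^ n * dotL l m + BB ^ (n + 1) * H ∧
      L * BB ≤ 80 * n * BB ^ n := by
  induction n generalizing l m with
  | zero =>
    match l, m, hln, hmn with
    | [a], [b], _, _ =>
      refine ⟨0, 0, ?_, by simp⟩
      simp [enc, encR, dotL]
  | succ n ih =>
    match l, m, hln, hmn with
    | a :: l, b :: m, hln, hmn =>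
      have hln' : l.length = n + 1 := by simpa using hln
      have hmn' : m.length = n + 1 := by simpa using hmn
      have hl' : ∀ a ∈ l, a ≤ 8 := fun b hb => hl b (List.mem_cons_of_mem _ hb)
      have hm' : ∀ a ∈ m, a ≤ 8 := fun b hb => hm b (List.mem_cons_of_mem _ hb)
      obtain ⟨L, H, h1, h2⟩ := ih l m hln' hmn' hl' hm'
      have ha : a ≤ 8 := hl a List.mem_cons_self
      refine ⟨a * encR m 0 + BB * L, H + b * enc l, ?_, ?_⟩
      · rw [enc, encR, encR_eq m (0 * BB + b), hmn', dotL]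
        have e1 : (a + BB * enc l) * ((0 * BB + b) * BB ^ (n + 1) + encR m 0)
            = a * encR m 0 + a * b * BB ^ (n + 1) + BB * (enc l * encR m 0)
              + b * enc l * BB ^ (n + 2) := by ring
        rw [e1, h1]
        ring
      · have h3 := encR_bound m hm'
        rw [hmn'] at h3
        have hB : BB = 10000 := rfl
        have e2 : (a * encR m 0 + BB * L) * BB = a * (encR m 0 * BB) + BB * (L * BB) := by ring
        rw [e2]
        have e3 : encR m 0 * BB ≤ 10 * BB ^ (n + 1) := by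
          obtain ⟨Z, hZ⟩ : ∃ Z, Z = BB ^ (n + 1) := ⟨_, rfl⟩
          rw [← hZ] at h3 ⊢
          rw [hB]
          omega
        have e4 : a * (encR m 0 * BB) ≤ 8 * (10 * BB ^ (n + 1)) := Nat.mul_le_mul ha e3
        have e5 : BB * (L * BB) ≤ BB * (80 * n * BB ^ n) := Nat.mul_le_mul_left _ h2
        have e6 : BB * (80 * n * BB ^ n) = 80 * n * BB ^ (n + 1) := by ring
        have e7 : 80 * (n + 1) * BB ^ (n + 1) = 8 * (10 * BB ^ (n + 1)) + 80 * n * BB ^ (n + 1) := by
          ring
        rw [e7]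
        omega

theorem dot_trick (l m : List ℕ) (hln : l.length = 63) (hmn : m.length = 63)
    (hl : ∀ a ∈ l, a ≤ 8) (hm : ∀ a ∈ m, a ≤ 8) :
    enc l * encR m 0 / BB ^ 62 % BB = dotL l m := by
  obtain ⟨L, H, h1, h2⟩ := key_split l m 62 hln hmn hl hm
  have h3 := dotL_bound l m hl hm
  rw [hln] at h3
  rw [h1]
  have hB : BB = 10000 := rfl
  have hL : L < BB ^ 62 := by
    have hpos : 0 < BB ^ 62 := Nat.pow_pos (by rw [hB]; norm_num)
    obtain ⟨Z, hZ⟩ : ∃ Z, Z = BB ^ 62 := ⟨_, rfl⟩
    rw [← hZ] at h2 hpos ⊢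
    rw [hB] at h2
    omega
  have e1 : L + BB ^ 62 * dotL l m + BB ^ (62 + 1) * H = L + BB ^ 62 * (dotL l m + BB * H) := by
    ring
  rw [e1, Nat.add_mul_div_left _ _ (by rw [hB]; positivity), Nat.div_eq_of_lt hL, zero_add,
    Nat.add_mul_mod_self_left, Nat.mod_eq_of_lt]
  rw [hB]; omega

end Vale.Agent.P052
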