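import Vale.Agent.P052.Defs
import Vale.Agent.P052.Check
import Vale.Agent.P052.ClqA
import Vale.Agent.P052.ClqB
import Vale.Agent.P052.ClqC
import Vale.Agent.P052.ClqD

namespace Vale.Agent.P052

/-- real vector of a point -/
noncomputable def vec (e : Pt) : EuclideanSpace ℝ (Fin 63) :=
  WithLp.toLp 2 fun k => (((digs 63 e.P).getD k 0 : ℕ) : ℝ)

theorem sum_zip (n : ℕ) : ∀ l m : List ℕ, l.length = n → m.length = n →
    ∑ k : Fin n, (((l.getD k 0 : ℕ) : ℝ) - ((m.getD k 0 : ℕ) : ℝ)) ^ 2
      = (dotL l l : ℝ) + (dotL m m : ℝ) - 2 * (dotL l m : ℝ) := by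
  induction n with
  | zero =>
    intro l m hl hm
    have hl' : l = [] := List.length_eq_zero_iff.mp hl
    have hm' : m = [] := List.length_eq_zero_iff.mp hm
    subst hl' hm'
    simp [dotL]
  | succ n ih =>
    intro l m hl hm
    match l, m, hl, hm with
    | a :: l, b :: m, hl, hm =>
      have h1 := ih l m (by simpa using hl) (by simpa using hm)
      rw [Fin.sum_univ_succ]
      simp only [Fin.val_zero, List.getD_cons_zero, Fin.val_succ, List.getD_cons_succ, dotL]
      rw [h1]
      push_cast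
      ring

theorem chkPt_spec {e : Pt} (h : chkPt e = true) :
    (∀ a ∈ digs 63 e.P, a ≤ 8) ∧ enc (digs 63 e.P) = e.P ∧ encR (digs 63 e.P) 0 = e.Q ∧
      e.P * e.Q / BB ^ 62 % BB = e.d := by
  have h1 := (Bool.and_eq_true _ _).mp h
  have h2 := (Bool.and_eq_true _ _).mp h1.2
  have h3 := (Bool.and_eq_true _ _).mp h2.2
  refine ⟨?_, Nat.eq_of_beq_eq_true h2.1, Nat.eq_of_beq_eq_true h3.1, Nat.eq_of_beq_eq_true h3.2⟩
  intro a ha
  have := List.all_eq_true.mp h1.1 a ha
  exact Nat.le_of_ble_eq_true this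

theorem prod_eq {a b : Pt} (ha : chkPt a = true) (hb : chkPt b = true) :
    a.P * b.Q / BB ^ 62 % BB = dotL (digs 63 a.P) (digs 63 b.P) := by
  obtain ⟨a1, a2, a3, a4⟩ := chkPt_spec ha
  obtain ⟨b1, b2, b3, b4⟩ := chkPt_spec hb
  have := dot_trick (digs 63 a.P) (digs 63 b.P) (digs_length _ _) (digs_length _ _) a1 b1
  rw [a2, b3] at this
  exact this

theorem dist_sq_vec {a b : Pt} (ha : chkPt a = true) (hb : chkPt b = true) :
    dist (vec a) (vec b) ^ 2
      = (a.d : ℝ) + (b.d : ℝ) - 2 * ((a.P * b.Q / BB ^ 62 % BB : ℕ) : ℝ) := by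
  have e1 : dist (vec a) (vec b) ^ 2 = ∑ k : Fin 63,
      ((((digs 63 a.P).getD k 0 : ℕ) : ℝ) - (((digs 63 b.P).getD k 0 : ℕ) : ℝ)) ^ 2 := by
    rw [dist_eq_norm, EuclideanSpace.norm_sq_eq]
    apply Finset.sum_congr rfl
    intro k _
    rw [Real.norm_eq_abs, sq_abs]
    rfl
  rw [e1, sum_zip 63 _ _ (digs_length _ _) (digs_length _ _), prod_eq ha hb]
  rw [← prod_eq ha ha, ← prod_eq hb hb]
  rw [(chkPt_spec ha).2.2.2, (chkPt_spec hb).2.2.2]

theorem chk_spec {a b : Pt} (ha : chkPt a = true) (hb : chkPt b = true) {u v : ℕ}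
    (h : chk u v a b = true) :
    (tb b.row a.idx = true ∧ dist (vec a) (vec b) ^ 2 = u) ∨
      (tb b.row a.idx = false ∧ dist (vec a) (vec b) ^ 2 = v) := by
  have h1 : a.d + b.d = 2 * (a.P * b.Q / BB ^ 62 % BB) + cond (tb b.row a.idx) u v :=
    Nat.eq_of_beq_eq_true h
  have h2 := dist_sq_vec ha hb
  have h3 : (a.d : ℝ) + (b.d : ℝ)
      = 2 * ((a.P * b.Q / BB ^ 62 % BB : ℕ) : ℝ) + ((cond (tb b.row a.idx) u v : ℕ) : ℝ) := by
    exact_mod_cast h1
  rcases hb : tb b.row a.idx with _ | _
  · right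
    rw [hb, cond_false] at h3
    exact ⟨rfl, by rw [h2]; linarith⟩
  · left
    rw [hb, cond_true] at h3
    exact ⟨rfl, by rw [h2]; linarith⟩

theorem tb_eq (r i : ℕ) : tb r i = r.testBit i := by
  unfold tb
  rw [Nat.testBit_eq_decide_div_mod_eq]
  have h1 : Nat.land (Nat.shiftRight r i) 1 = r / 2 ^ i % 2 := by
    have : Nat.land (Nat.shiftRight r i) 1 = (r >>> i) &&& 1 := rfl
    rw [this, Nat.and_one_is_mod, Nat.shiftRight_eq_div_pow]
  rw [h1]
  rcases Nat.mod_two_eq_zero_or_one (r / 2 ^ i) with h | h <;> rw [h] <;> rfl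

theorem allPairs_iff (r : Pt → Pt → Bool) (l : List Pt) :
    allPairs r l = true ↔ l.Pairwise (fun a b => r a b = true) := by
  induction l with
  | nil => simp [allPairs]
  | cons a l ih =>
    have : allPairs r (a :: l) = and (l.all (r a)) (allPairs r l) := rfl
    rw [this, List.pairwise_cons, Bool.and_eq_true, ih, List.all_eq_true]

theorem len_C : ptsC.length = 320 := by
  have h := congrArg List.length chk_idx
  simpa using h

theorem idx_C (i : ℕ) (h : i < ptsC.length) : (ptsC[i]).idx = i := by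
  have h1 : (ptsC.map Pt.idx)[i]'(by simpa using h) = (ptsC[i]).idx := by simp
  rw [← h1]
  have h2 := chk_idx
  simp [h2]

theorem chkPt_C (i : ℕ) (h : i < ptsC.length) : chkPt ptsC[i] = true :=
  List.all_eq_true.mp chk_pts _ (List.mem_cons_of_mem _ (List.mem_cons_of_mem _
    (List.getElem_mem h)))

theorem chkPt_V : chkPt ptV = true :=
  List.all_eq_true.mp chk_pts _ (List.mem_cons_of_mem _ List.mem_cons_self)

theorem chkPt_O : chkPt ptO = true :=
  List.all_eq_true.mp chk_pts _ List.mem_cons_self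

theorem rowOf_C (i : ℕ) (h : i < ptsC.length) : rowOf i = (ptsC[i]).row := by
  unfold rowOf
  rw [List.getD_eq_getElem _ _ (by rw [List.length_append]; omega), List.getElem_append_left h]

theorem rowOf_V : rowOf 320 = ptV.row := by
  unfold rowOf
  have : (320 : ℕ) = ptsC.length := len_C.symm
  rw [this]
  rw [List.getD_eq_getElem _ _ (by rw [List.length_append]; simp)]
  simp

/-- the scaling factor of the extra point -/
noncomputable def sc : ℝ := (-1 + Real.sqrt 222) / 13

theorem sc_eq : 13 * sc ^ 2 + 2 * sc = 17 := by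
  unfold sc
  have h : Real.sqrt 222 ^ 2 = 222 := Real.sq_sqrt (by norm_num)
  field_simp
  nlinarith [h]

theorem sc_pos : 0 < sc := by
  unfold sc
  have h : (1 : ℝ) < Real.sqrt 222 := by
    rw [Real.lt_sqrt (by norm_num)]; norm_num
  have : 0 < -1 + Real.sqrt 222 := by linarith
  positivity

/-- the extra point -/
noncomputable def xpt : EuclideanSpace ℝ (Fin 63) := vec ptO + sc • (vec ptV - vec ptO)

theorem stewart (u w : EuclideanSpace ℝ (Fin 63)) (s : ℝ) :
    ‖u - s • w‖ ^ 2 = (1 - s) * ‖u‖ ^ 2 + s * ‖u - w‖ ^ 2 - s * (1 - s) * ‖w‖ ^ 2 := by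
  rw [norm_sub_sq_real, norm_sub_sq_real, norm_smul, inner_smul_right, mul_pow,
    Real.norm_eq_abs, sq_abs]
  ring

theorem dist_x (p : EuclideanSpace ℝ (Fin 63)) :
    dist p xpt ^ 2 = (1 - sc) * dist p (vec ptO) ^ 2 + sc * dist p (vec ptV) ^ 2
      - sc * (1 - sc) * dist (vec ptV) (vec ptO) ^ 2 := by
  have e1 : p - xpt = (p - vec ptO) - sc • (vec ptV - vec ptO) := by
    unfold xpt; abel
  have e2 : p - vec ptV = (p - vec ptO) - (vec ptV - vec ptO) := by abel
  rw [dist_eq_norm, dist_eq_norm, dist_eq_norm, dist_eq_norm, e1, e2]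
  exact stewart _ _ _

/-- the 321 points -/
noncomputable def pt (i : Fin 321) : EuclideanSpace ℝ (Fin 63) :=
  if h : (i : ℕ) < ptsC.length then vec ptsC[(i : ℕ)] else xpt

theorem pt_C (i : Fin 321) (h : (i : ℕ) < ptsC.length) : pt i = vec ptsC[(i : ℕ)] := by
  unfold pt; rw [dif_pos h]

theorem pt_V (i : Fin 321) (h : ¬ (i : ℕ) < ptsC.length) : pt i = xpt := by
  unfold pt; rw [dif_neg h]

theorem dist_pt (i j : Fin 321) (hij : (i : ℕ) < j) :
    dist (pt i) (pt j) ^ 2 = 128 ∨
      (dist (pt i) (pt j) ^ 2 < 128 ∧ (rowOf j).testBit i = true) := by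
  have hiC : (i : ℕ) < ptsC.length := by
    have := j.2; rw [len_C]; omega
  by_cases hjC : (j : ℕ) < ptsC.length
  · rw [pt_C i hiC, pt_C j hjC, rowOf_C j hjC]
    have hp := List.pairwise_iff_getElem.mp ((allPairs_iff _ _).mp chk_pairs) i j hiC hjC hij
    rcases chk_spec (chkPt_C i hiC) (chkPt_C j hjC) hp with h | h
    · right
      refine ⟨by rw [h.2]; norm_num, ?_⟩
      rw [← tb_eq, ← idx_C i hiC]; exact h.1
    · left; rw [h.2]; norm_num
  · have hj : (j : ℕ) = 320 := by
      have := j.2; rw [len_C] at hjC; omega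
    rw [pt_C i hiC, pt_V j hjC, hj, rowOf_V, dist_x]
    have hO := List.all_eq_true.mp chk_O _ (List.getElem_mem hiC)
    have hV := List.all_eq_true.mp chk_V _ (List.getElem_mem hiC)
    have hO2 : dist (vec ptsC[(i : ℕ)]) (vec ptO) ^ 2 = 60 := by
      rcases chk_spec (chkPt_C i hiC) chkPt_O hO with h | h <;> rw [h.2] <;> norm_num
    have hOV : dist (vec ptV) (vec ptO) ^ 2 = 52 := by
      rcases chk_spec chkPt_V chkPt_O chk_OV with h | h <;> rw [h.2] <;> norm_num
    have hs := sc_eq
    have hs0 := sc_pos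
    rw [hO2, hOV]
    clear hO2 hOV hO
    rcases chk_spec (chkPt_C i hiC) chkPt_V hV with h | h
    · right
      have hV2 : dist (vec ptsC[(i : ℕ)]) (vec ptV) ^ 2 = 88 := by rw [h.2]; norm_num
      refine ⟨?_, ?_⟩
      · rw [hV2]
        clear hV2 h hV
        generalize sc = s at *
        have h1 : (1 - s) * 60 + s * 88 - s * (1 - s) * 52 = 128 - 32 * s := by
          linear_combination 4 * hs
        rw [h1]
        linarith
      · rw [← tb_eq, ← idx_C i hiC]; exact h.1
    · left
      have hV2 : dist (vec ptsC[(i : ℕ)]) (vec ptV) ^ 2 = 120 := by rw [h.2]; norm_num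
      rw [hV2]
      clear hV2 h hV
      generalize sc = s at *
      linear_combination 4 * hs

theorem clq_all (v : ℕ) (hv : v < 321) : noclq mtree 321 4 (rowOf v) = true := by
  have hmem : ∀ e ∈ ptsC, noclq mtree 321 4 e.row = true := by
    intro e he
    unfold ptsC at he
    simp only [List.mem_append] at he
    rcases he with h | h | h | h | h | h | h | h | h | h | h | h | h | h | h | h
    · have := List.all_eq_true.mp clq0 e h; rwa [force_eq] at this
    · have := List.all_eq_true.mp clq1 e h; rwa [force_eq] at this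
    · have := List.all_eq_true.mp clq2 e h; rwa [force_eq] at this
    · have := List.all_eq_true.mp clq3 e h; rwa [force_eq] at this
    · have := List.all_eq_true.mp clq4 e h; rwa [force_eq] at this
    · have := List.all_eq_true.mp clq5 e h; rwa [force_eq] at this
    · have := List.all_eq_true.mp clq6 e h; rwa [force_eq] at this
    · have := List.all_eq_true.mp clq7 e h; rwa [force_eq] at this
    · have := List.all_eq_true.mp clq8 e h; rwa [force_eq] at this
    · have := List.all_eq_true.mp clq9 e h; rwa [force_eq] at this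
    · have := List.all_eq_true.mp clq10 e h; rwa [force_eq] at this
    · have := List.all_eq_true.mp clq11 e h; rwa [force_eq] at this
    · have := List.all_eq_true.mp clq12 e h; rwa [force_eq] at this
    · have := List.all_eq_true.mp clq13 e h; rwa [force_eq] at this
    · have := List.all_eq_true.mp clq14 e h; rwa [force_eq] at this
    · have := List.all_eq_true.mp clq15 e h; rwa [force_eq] at this
  by_cases h : v < ptsC.length
  · rw [rowOf_C v h]
    exact hmem _ (List.getElem_mem h)
  · have : v = 320 := by rw [len_C] at h; omega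
    rw [this, rowOf_V]
    have := clqV
    rwa [force_eq] at this

theorem rowOf_lt (v : ℕ) (hv : v < 321) : rowOf v < 2 ^ 321 := by
  have hl : v < (ptsC ++ [ptV]).length := by
    rw [List.length_append, len_C]; simpa using hv
  have h := List.all_eq_true.mp rows_lt _ (List.getElem_mem hl)
  unfold rowOf
  rw [List.getD_eq_getElem _ _ hl]
  exact Nat.blt_eq.mp h

/-- any set of indices whose points are pairwise at distance `≠ √128` has at most 5 elements -/
theorem card_le_five (S : Finset (Fin 321))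
    (hS : ∀ i ∈ S, ∀ j ∈ S, (i : ℕ) < j → dist (pt i) (pt j) ^ 2 ≠ 128) : S.card ≤ 5 := by
  by_contra hcon
  push Not at hcon
  have hne : S.Nonempty := by
    rw [← Finset.card_pos]; omega
  obtain ⟨m, hm, hmax⟩ := Finset.exists_max_image S (fun i => (i : ℕ)) hne
  have hbit : ∀ i ∈ S, ∀ j ∈ S, (j : ℕ) < i → (rowOf i).testBit j = true := by
    intro i hi j hj hlt
    rcases dist_pt j i hlt with h | h
    · exact absurd h (hS j hj i hi hlt)
    · exact h.2
  let T : Finset ℕ := (S.erase m).image (fun i : Fin 321 => (i : ℕ))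
  have hT : T.card = S.card - 1 := by
    have e : T.card = (S.erase m).card := Finset.card_image_of_injective _ Fin.val_injective
    rw [e, Finset.card_erase_of_mem hm]
  have key := noclq_sound rowOf mtree chk_tree 321 4 (rowOf m)
    (by rw [tree_size]; exact rowOf_lt m m.2) (clq_all m m.2) T ?_ ?_
  · omega
  · intro i hi
    obtain ⟨i', hi', rfl⟩ := Finset.mem_image.mp hi
    have h1 := Finset.mem_erase.mp hi'
    have h2 : (i' : ℕ) < m := lt_of_le_of_ne (hmax i' h1.2) (fun h => h1.1 (Fin.ext h))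
    exact hbit m hm i' h1.2 h2
  · intro i hi j hj hlt
    obtain ⟨i', hi', rfl⟩ := Finset.mem_image.mp hi
    obtain ⟨j', hj', rfl⟩ := Finset.mem_image.mp hj
    exact hbit i' (Finset.mem_of_mem_erase hi') j' (Finset.mem_of_mem_erase hj') hlt

theorem dist_le_pt (i j : Fin 321) : dist (pt i) (pt j) ^ 2 ≤ 128 := by
  rcases lt_trichotomy (i : ℕ) j with h | h | h
  · rcases dist_pt i j h with h' | h'
    · exact h'.le
    · exact h'.1.le
  · have : i = j := Fin.ext h
    rw [this, dist_self]; norm_num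
  · rw [dist_comm]
    rcases dist_pt j i h with h' | h'
    · exact h'.le
    · exact h'.1.le

theorem exists_far : ∃ i j : Fin 321, dist (pt i) (pt j) ^ 2 = 128 := by
  by_contra hcon
  push Not at hcon
  have := card_le_five Finset.univ (fun i _ j _ _ => hcon i j)
  simp at this

theorem not_borsuk_63 : ¬ BorsukConjecture 63 := by
  intro h
  have hbdd : Bornology.IsBounded (Set.range pt) := (Set.finite_range pt).isBounded
  have hle : Metric.diam (Set.range pt) ≤ Real.sqrt 128 := by
    apply Metric.diam_le_of_forall_dist_le (Real.sqrt_nonneg _)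
    rintro _ ⟨i, rfl⟩ _ ⟨j, rfl⟩
    exact Real.le_sqrt_of_sq_le (dist_le_pt i j)
  have hpos : 0 < Metric.diam (Set.range pt) := by
    obtain ⟨i, j, hij⟩ := exists_far
    have h1 : dist (pt i) (pt j) ≤ Metric.diam (Set.range pt) :=
      Metric.dist_le_diam_of_mem hbdd ⟨i, rfl⟩ ⟨j, rfl⟩
    have h2 : 0 < dist (pt i) (pt j) := by
      rcases (dist_nonneg (x := pt i) (y := pt j)).lt_or_eq with h | h
      · exact h
      · rw [← h] at hij; norm_num at hij
    linarith
  obtain ⟨P, hP, hdiam⟩ := h (Set.range pt) hbdd hpos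
  have hcov : ∀ i : Fin 321, ∃ c : Fin (63 + 1), pt i ∈ P c := by
    intro i
    have : pt i ∈ ⋃ c, P c := by rw [hP]; exact ⟨i, rfl⟩
    simpa using this
  choose f hf using hcov
  obtain ⟨c, hc⟩ := Fintype.exists_lt_card_fiber_of_mul_lt_card f (n := 5) (by simp)
  have hcard := card_le_five (Finset.univ.filter fun i => f i = c) ?_
  · omega
  · intro i hi j hj _ heq
    have hi' : f i = c := (Finset.mem_filter.mp hi).2
    have hj' : f j = c := (Finset.mem_filter.mp hj).2
    have hb : Bornology.IsBounded (P c) := hbdd.subset (by rw [← hP]; exact Set.subset_iUnion P c)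
    have h1 : dist (pt i) (pt j) ≤ Metric.diam (P c) :=
      Metric.dist_le_diam_of_mem hb (hi' ▸ hf i) (hj' ▸ hf j)
    have h2 : dist (pt i) (pt j) < Real.sqrt 128 := lt_of_le_of_lt h1 (lt_of_lt_of_le (hdiam c) hle)
    have h3 : dist (pt i) (pt j) ^ 2 < 128 := by
      have := Real.lt_sqrt (dist_nonneg (x := pt i) (y := pt j)) |>.mp h2
      exact this
    linarith

end Vale.Agent.P052
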